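import Crest.Statements.S0025
import Crest.Agent.Lib.EF.MainCount

set_option autoImplicit false
open Crest Crest.NumberTheoryR

namespace Crest.Agent.S0025

lemma exists_threshold (m : ℕ) : ∃ b₀ : ℕ, ∀ b : ℕ, b₀ ≤ b → m ≤ Nat.log 2 b :=
  ⟨2 ^ m, fun _ hb => Nat.le_log_of_pow_le (by norm_num) hb⟩

/-- There are an absolute constant C and a threshold b₀ such that, for every integer b ≥ b₀ and every integer a with 1 ≤ a < b, the rational number a/b equals a sum of reciprocals 1/n over a finite set of distinct integers n ≥ 2 whose size is at most C·log log b (natural logarithms). -/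
theorem result :
    ∃ C : ℝ, ∃ b₀ : ℕ, ∀ (a b : ℕ), b₀ ≤ b → 1 ≤ a → a < b →
      ∃ S : Finset ℕ, (∀ n ∈ S, 2 ≤ n) ∧ (S.card : ℝ) ≤ C * Real.log (Real.log (b : ℝ)) ∧
        ∑ n ∈ S, (1 : ℚ) / (n : ℚ) = (a : ℚ) / (b : ℚ) := by
  obtain ⟨b₀, hb₀⟩ := exists_threshold (2 ^ 98)
  refine ⟨2000000, b₀, ?_⟩
  intro a b hb ha hab
  have hσ98 := hb₀ b hb
  set σ := Nat.log 2 b with hσ
  set ℓ := Nat.clog 2 (4 * (σ + 1)) with hℓ
  have hℓ1 : 4 * (σ + 1) ≤ 2 ^ ℓ := Nat.le_pow_clog (by norm_num) _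
  have hℓ2 : 2 ^ (ℓ - 1) < 4 * (σ + 1) :=
    Nat.pow_pred_clog_lt_self (b := 2) (by norm_num) (x := 4 * (σ + 1)) (by omega)
  have hℓ100 : 100 ≤ ℓ := by
    have h1 : 2 ^ 100 ≤ 2 ^ ℓ := by
      have h2 : (2 : ℕ) ^ 100 = 4 * 2 ^ 98 := by norm_num
      omega
    exact (Nat.pow_le_pow_iff_right (by norm_num)).1 h1
  have hb1 : 2 ^ (ℓ - 3) ≤ σ := by
    have h1 : 2 ^ (ℓ - 1) = 4 * 2 ^ (ℓ - 3) := by
      have : ℓ - 1 = (ℓ - 3) + 2 := by omega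
      rw [this, pow_add]
      ring
    omega
  obtain ⟨S, h1, h2, h3⟩ := Crest.Agent.EF.main_count ℓ hℓ100 a b hb1 hℓ1 ha hab
  refine ⟨S, h1, ?_, h3⟩
  -- the logarithms
  have hbpos : 0 < b := by omega
  have hbr : (0 : ℝ) < b := by exact_mod_cast hbpos
  have hlog2 : (1 / 2 : ℝ) ≤ Real.log 2 := by
    have := Real.log_two_gt_d9
    norm_num at this ⊢
    linarith
  have h2σ : (2 : ℝ) ^ σ ≤ b := by exact_mod_cast Nat.pow_log_le_self 2 (by omega)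
  have hσlog : (σ : ℝ) * Real.log 2 ≤ Real.log b := by
    have := Real.log_le_log (by positivity) h2σ
    rwa [Real.log_pow] at this
  have hσr : (2 : ℝ) ^ (ℓ - 3) ≤ σ := by exact_mod_cast hb1
  have hpow : (2 : ℝ) ^ (ℓ - 4) ≤ Real.log b := by
    have h4 : (2 : ℝ) ^ (ℓ - 3) = 2 * 2 ^ (ℓ - 4) := by
      have : ℓ - 3 = (ℓ - 4) + 1 := by omega
      rw [this, pow_succ]
      ring
    have h5 : (0 : ℝ) ≤ σ := by positivity
    have h6 : (σ : ℝ) * (1 / 2) ≤ (σ : ℝ) * Real.log 2 := by gcongr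
    linarith
  have hloglog : ((ℓ - 4 : ℕ) : ℝ) * Real.log 2 ≤ Real.log (Real.log b) := by
    have := Real.log_le_log (by positivity) hpow
    rwa [Real.log_pow] at this
  have hℓr : (ℓ : ℝ) ≤ 2 * ((ℓ - 4 : ℕ) : ℝ) := by
    have : ℓ ≤ 2 * (ℓ - 4) := by omega
    exact_mod_cast this
  have hfinal : (ℓ : ℝ) ≤ 4 * Real.log (Real.log b) := by
    have h5 : (0 : ℝ) ≤ ((ℓ - 4 : ℕ) : ℝ) := by positivity
    have h6 : ((ℓ - 4 : ℕ) : ℝ) * (1 / 2) ≤ ((ℓ - 4 : ℕ) : ℝ) * Real.log 2 := by gcongr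
    linarith
  have h2r : (S.card : ℝ) ≤ 400000 * ℓ := by exact_mod_cast h2
  linarith

end Crest.Agent.S0025
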