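import Mathlib

set_option autoImplicit false
set_option linter.unusedSectionVars false
set_option linter.unusedSimpArgs false

open Finset

namespace Crest.Agent.S0085Lib

noncomputable section

/-- Sign of a Boolean. -/
def sg (b : Bool) : ℝ := if b then 1 else -1

@[simp] lemma sg_true : sg true = 1 := by simp [sg]
@[simp] lemma sg_false : sg false = -1 := by simp [sg]

lemma sg_mul_self (b : Bool) : sg b * sg b = 1 := by cases b <;> simp

variable {ι κ : Type} [Fintype ι] [DecidableEq ι] [Fintype κ] [DecidableEq κ]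

/-- Walsh character. -/
def chi (S : Finset ι) (x : ι → Bool) : ℝ := ∏ i ∈ S, sg (x i)

/-- Unnormalised Walsh coefficient. -/
def coef (f : (ι → Bool) → Bool) (S : Finset ι) : ℝ := ∑ x, sg (f x) * chi S x

lemma sum_sg : ∑ b : Bool, sg b = 0 := by simp

lemma sum_one_bool : ∑ _b : Bool, (1 : ℝ) = 2 := by simp

/-- Sum of a character over the cube. -/
lemma sum_chi (S : Finset ι) :
    ∑ x : ι → Bool, chi S x = if S = ∅ then (2 : ℝ) ^ Fintype.card ι else 0 := by
  classical
  have h : ∀ x : ι → Bool, chi S x = ∏ i, (if i ∈ S then sg (x i) else 1) := by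
    intro x
    unfold chi
    rw [Finset.prod_ite_mem]
    simp
  simp_rw [h]
  have := (Finset.prod_univ_sum (fun _ : ι => (Finset.univ : Finset Bool))
      (fun i b => if i ∈ S then sg b else 1))
  simp only [Fintype.piFinset_univ] at this
  rw [← this]
  split_ifs with hS
  · subst hS
    simp
  · obtain ⟨i, hi⟩ := Finset.nonempty_iff_ne_empty.mpr hS
    apply Finset.prod_eq_zero (Finset.mem_univ i)
    simp [hi]

/-- Orthogonality kernel: sum over `S` of `chi S x * chi S y`. -/
lemma sum_chi_mul_chi (x y : ι → Bool) :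
    ∑ S : Finset ι, chi S x * chi S y = if x = y then (2 : ℝ) ^ Fintype.card ι else 0 := by
  classical
  have h : ∀ S : Finset ι, chi S x * chi S y = ∏ i ∈ S, (sg (x i) * sg (y i)) := by
    intro S
    unfold chi
    rw [Finset.prod_mul_distrib]
  simp_rw [h]
  have h2 := Finset.prod_one_add (s := (Finset.univ : Finset ι))
      (f := fun i => sg (x i) * sg (y i))
  simp only [Finset.powerset_univ] at h2
  rw [← h2]
  split_ifs with hxy
  · subst hxy
    simp_rw [sg_mul_self]
    simp
    norm_num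
  · obtain ⟨i, hi⟩ := Function.ne_iff.mp hxy
    apply Finset.prod_eq_zero (Finset.mem_univ i)
    cases hx : x i <;> cases hy : y i <;> simp_all

/-- Fourier inversion. -/
lemma inversion (f : (ι → Bool) → Bool) (y : ι → Bool) :
    sg (f y) = (∑ S : Finset ι, coef f S * chi S y) / 2 ^ Fintype.card ι := by
  classical
  have hne : (2 : ℝ) ^ Fintype.card ι ≠ 0 := by positivity
  rw [eq_div_iff hne]
  unfold coef
  simp_rw [Finset.sum_mul]
  rw [Finset.sum_comm]
  have : ∀ x : ι → Bool, ∑ S : Finset ι, sg (f x) * chi S x * chi S y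
      = sg (f x) * (if x = y then (2 : ℝ) ^ Fintype.card ι else 0) := by
    intro x
    rw [← sum_chi_mul_chi x y, Finset.mul_sum]
    refine Finset.sum_congr rfl fun S _ => by ring
  simp_rw [this]
  simp

/-- Composition of `g` with copies of `h` on independent blocks. -/
def comp (g : (ι → Bool) → Bool) (h : (κ → Bool) → Bool) : ((ι × κ) → Bool) → Bool :=
  fun x => g (fun i => h (fun j => x (i, j)))

/-- Fibre of a set of pairs over a block. -/
def fib (A : Finset (ι × κ)) (i : ι) : Finset κ := (A.filter (fun p => p.1 = i)).image Prod.snd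

lemma mem_fib {A : Finset (ι × κ)} {i : ι} {j : κ} : j ∈ fib A i ↔ (i, j) ∈ A := by
  unfold fib
  simp only [mem_image, mem_filter, Prod.exists, exists_and_right, exists_eq_right]

lemma chi_split (A : Finset (ι × κ)) (x : (ι × κ) → Bool) :
    chi A x = ∏ i, chi (fib A i) (fun j => x (i, j)) := by
  classical
  unfold chi
  have h1 : A = (Finset.univ : Finset ι).biUnion (fun i => (fib A i).image (fun j => (i, j))) := by
    ext ⟨i, j⟩
    constructor
    · intro h
      exact Finset.mem_biUnion.mpr ⟨i, mem_univ _, Finset.mem_image.mpr ⟨j, mem_fib.mpr h, rfl⟩⟩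
    · intro h
      obtain ⟨a, _, ha⟩ := Finset.mem_biUnion.mp h
      obtain ⟨b, hb, hab⟩ := Finset.mem_image.mp ha
      have h3 := mem_fib.mp hb
      rw [Prod.mk.injEq] at hab
      rw [← hab.1, ← hab.2]
      exact h3
  conv_lhs => rw [h1]
  rw [Finset.prod_biUnion]
  · refine Finset.prod_congr rfl fun i _ => ?_
    rw [Finset.prod_image]
    intro a _ b _ hab
    exact (Prod.mk.inj hab).2
  · intro a _ b _ hab
    simp only [Function.onFun]
    rw [Finset.disjoint_left]
    intro p hp hq
    obtain ⟨j, _, rfl⟩ := Finset.mem_image.mp hp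
    obtain ⟨j', _, hj'⟩ := Finset.mem_image.mp hq
    exact hab (Prod.mk.inj hj').1.symm

/-- The key block factorisation of the coefficients of a composition. -/
lemma coef_comp (g : (ι → Bool) → Bool) (h : (κ → Bool) → Bool) (A : Finset (ι × κ)) :
    coef (comp g h) A =
      (∑ T : Finset ι, coef g T *
        ∏ i, (if i ∈ T then coef h (fib A i) else ∑ z : κ → Bool, chi (fib A i) z))
        / 2 ^ Fintype.card ι := by
  classical
  -- curry the cube
  have hcurry : ∀ F : ((ι × κ) → Bool) → ℝ,
      ∑ x, F x = ∑ w : ι → κ → Bool, F (fun p => w p.1 p.2) := by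
    intro F
    refine (Fintype.sum_equiv (Equiv.curry ι κ Bool) _ _ ?_)
    intro x
    congr 1
  have hL : coef (comp g h) A = ∑ x, sg (comp g h x) * chi A x := rfl
  rw [hL, hcurry]
  simp only [comp]
  have hexp : ∀ w : ι → κ → Bool,
      sg (g (fun i => h (w i))) =
        (∑ T : Finset ι, coef g T * chi T (fun i => h (w i))) / 2 ^ Fintype.card ι := by
    intro w
    exact inversion g (fun i => h (w i))
  have hchi : ∀ w : ι → κ → Bool,
      chi A (fun p : ι × κ => w p.1 p.2) = ∏ i, chi (fib A i) (w i) := by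
    intro w
    rw [chi_split]
  have hterm : ∀ w : ι → κ → Bool, ∀ T : Finset ι,
      chi T (fun i => h (w i)) * ∏ i, chi (fib A i) (w i)
        = ∏ i, (if i ∈ T then sg (h (w i)) * chi (fib A i) (w i) else chi (fib A i) (w i)) := by
    intro w T
    have : chi T (fun i => h (w i)) = ∏ i, (if i ∈ T then sg (h (w i)) else 1) := by
      unfold chi
      rw [Finset.prod_ite_mem]
      simp
    rw [this, ← Finset.prod_mul_distrib]
    refine Finset.prod_congr rfl fun i _ => ?_
    split_ifs <;> simp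
  have hsum : ∀ T : Finset ι,
      ∑ w : ι → κ → Bool, chi T (fun i => h (w i)) * ∏ i, chi (fib A i) (w i)
        = ∏ i, (if i ∈ T then coef h (fib A i) else ∑ z : κ → Bool, chi (fib A i) z) := by
    intro T
    simp_rw [hterm]
    have := (Finset.prod_univ_sum (fun _ : ι => (Finset.univ : Finset (κ → Bool)))
      (fun i z => if i ∈ T then sg (h z) * chi (fib A i) z else chi (fib A i) z))
    simp only [Fintype.piFinset_univ] at this
    rw [← this]
    refine Finset.prod_congr rfl fun i _ => ?_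
    split_ifs <;> simp [coef]
  simp_rw [hexp, hchi]
  simp_rw [div_mul_eq_mul_div, Finset.sum_mul]
  rw [← Finset.sum_div]
  congr 1
  rw [Finset.sum_comm]
  refine Finset.sum_congr rfl fun T _ => ?_
  rw [← hsum T, Finset.mul_sum]
  refine Finset.sum_congr rfl fun w _ => ?_
  ring

lemma card_eq_sum_fib (A : Finset (ι × κ)) : A.card = ∑ i, (fib A i).card := by
  classical
  have h1 : A = (Finset.univ : Finset ι).biUnion (fun i => (fib A i).image (fun j => (i, j))) := by
    ext ⟨i, j⟩
    constructor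
    · intro h
      exact Finset.mem_biUnion.mpr ⟨i, mem_univ _, Finset.mem_image.mpr ⟨j, mem_fib.mpr h, rfl⟩⟩
    · intro h
      obtain ⟨a, _, ha⟩ := Finset.mem_biUnion.mp h
      obtain ⟨b, hb, hab⟩ := Finset.mem_image.mp ha
      have h3 := mem_fib.mp hb
      rw [Prod.mk.injEq] at hab
      rw [← hab.1, ← hab.2]
      exact h3
  conv_lhs => rw [h1]
  rw [Finset.card_biUnion]
  · refine Finset.sum_congr rfl fun i _ => ?_
    rw [Finset.card_image_of_injective]
    intro a b hab
    exact (Prod.mk.inj hab).2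
  · intro a _ b _ hab
    simp only [Function.onFun]
    rw [Finset.disjoint_left]
    intro p hp hq
    obtain ⟨j, _, rfl⟩ := Finset.mem_image.mp hp
    obtain ⟨j', _, hj'⟩ := Finset.mem_image.mp hq
    exact hab (Prod.mk.inj hj').1.symm

/-- Degree of a composition. -/
lemma coef_comp_eq_zero_of_card (g : (ι → Bool) → Bool) (h : (κ → Bool) → Bool) (dg dh : ℕ)
    (hg : ∀ T : Finset ι, dg < T.card → coef g T = 0)
    (hh : ∀ U : Finset κ, dh < U.card → coef h U = 0)
    (A : Finset (ι × κ)) (hA : dg * dh < A.card) : coef (comp g h) A = 0 := by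
  classical
  rw [coef_comp]
  have : (∑ T : Finset ι, coef g T *
        ∏ i, (if i ∈ T then coef h (fib A i) else ∑ z : κ → Bool, chi (fib A i) z)) = 0 := by
    apply Finset.sum_eq_zero
    intro T _
    by_cases hT : dg < T.card
    · simp [hg T hT]
    · by_contra hne
      have hprod := right_ne_zero_of_mul hne
      have hfac := Finset.prod_ne_zero_iff.mp hprod
      have hbound : ∀ i, (fib A i).card ≤ if i ∈ T then dh else 0 := by
        intro i
        have := hfac i (mem_univ i)
        by_cases hi : i ∈ T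
        · simp only [hi, if_true] at this ⊢
          by_contra hcon
          exact this (hh _ (not_le.mp hcon))
        · simp only [hi, if_false, sum_chi] at this ⊢
          by_contra hcon
          apply this
          rw [if_neg]
          intro hemp
          rw [hemp] at hcon
          simp at hcon
      have hc : A.card ≤ T.card * dh := by
        rw [card_eq_sum_fib]
        calc ∑ i, (fib A i).card ≤ ∑ i, (if i ∈ T then dh else 0) :=
              Finset.sum_le_sum fun i _ => hbound i
          _ = T.card * dh := by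
              rw [Finset.sum_ite_mem]
              simp
      have : T.card * dh ≤ dg * dh := Nat.mul_le_mul_right _ (not_lt.mp hT)
      omega
  rw [this]
  simp

lemma fib_empty (i : ι) : fib (∅ : Finset (ι × κ)) i = ∅ := by
  simp [fib]

/-- Balance of a composition. -/
lemma coef_comp_empty (g : (ι → Bool) → Bool) (h : (κ → Bool) → Bool)
    (hg : coef g ∅ = 0) (hh : coef h ∅ = 0) : coef (comp g h) ∅ = 0 := by
  classical
  rw [coef_comp]
  have : (∑ T : Finset ι, coef g T *
        ∏ i, (if i ∈ T then coef h (fib (∅ : Finset (ι × κ)) i)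
          else ∑ z : κ → Bool, chi (fib (∅ : Finset (ι × κ)) i) z)) = 0 := by
    apply Finset.sum_eq_zero
    intro T _
    by_cases hT : T = ∅
    · subst hT
      simp [hg]
    · obtain ⟨i, hi⟩ := Finset.nonempty_iff_ne_empty.mpr hT
      rw [Finset.prod_eq_zero (Finset.mem_univ i)]
      · simp
      · simp [hi, fib_empty, hh]
  rw [this]
  simp

lemma fib_singleton (i0 i : ι) (j0 : κ) :
    fib ({(i0, j0)} : Finset (ι × κ)) i = if i = i0 then {j0} else ∅ := by
  ext j
  rw [mem_fib]
  split_ifs with h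
  · subst h
    simp
  · simp [Prod.mk.injEq, h]

/-- Singleton coefficients of a composition. -/
lemma coef_comp_singleton (g : (ι → Bool) → Bool) (h : (κ → Bool) → Bool)
    (hh : coef h ∅ = 0) (i0 : ι) (j0 : κ) :
    coef (comp g h) {(i0, j0)} / 2 ^ Fintype.card (ι × κ) =
      (coef g {i0} / 2 ^ Fintype.card ι) * (coef h {j0} / 2 ^ Fintype.card κ) := by
  classical
  rw [coef_comp]
  have hb : (2 : ℝ) ^ Fintype.card κ ≠ 0 := by positivity
  have hsumchi : ∀ U : Finset κ, ∑ z : κ → Bool, chi U z
      = if U = ∅ then (2 : ℝ) ^ Fintype.card κ else 0 := sum_chi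
  have hmain : (∑ T : Finset ι, coef g T *
        ∏ i, (if i ∈ T then coef h (fib ({(i0, j0)} : Finset (ι × κ)) i)
          else ∑ z : κ → Bool, chi (fib ({(i0, j0)} : Finset (ι × κ)) i) z))
      = coef g {i0} * ((coef h {j0} / 2 ^ Fintype.card κ) * (2 ^ Fintype.card κ) ^ Fintype.card ι) := by
    rw [Finset.sum_eq_single ({i0} : Finset ι)]
    · congr 1
      have : ∀ i : ι, (if i ∈ ({i0} : Finset ι) then coef h (fib ({(i0, j0)} : Finset (ι × κ)) i)
          else ∑ z : κ → Bool, chi (fib ({(i0, j0)} : Finset (ι × κ)) i) z)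
          = (if i = i0 then coef h {j0} / 2 ^ Fintype.card κ else 1) * 2 ^ Fintype.card κ := by
        intro i
        by_cases hi : i = i0
        · subst hi
          simp [fib_singleton, hb]
        · simp [hi, fib_singleton, hsumchi]
      simp_rw [this]
      rw [Finset.prod_mul_distrib, Finset.prod_ite_eq' ]
      simp
    · intro T _ hT
      by_cases hi0 : i0 ∈ T
      · -- another element in T
        have : ∃ i ∈ T, i ≠ i0 := by
          by_contra hcon
          push Not at hcon
          apply hT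
          ext i
          simp only [mem_singleton]
          constructor
          · exact hcon i
          · rintro rfl; exact hi0
        obtain ⟨i, hi, hne⟩ := this
        rw [Finset.prod_eq_zero (Finset.mem_univ i)]
        · simp
        · simp [hi, fib_singleton, hne, hh]
      · rw [Finset.prod_eq_zero (Finset.mem_univ i0)]
        · simp
        · simp [hi0, fib_singleton, hsumchi]
    · intro hcon
      exact absurd (Finset.mem_univ _) hcon
  rw [hmain]
  have hcard : (2 : ℝ) ^ Fintype.card (ι × κ) = (2 ^ Fintype.card κ) ^ Fintype.card ι := by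
    rw [Fintype.card_prod, ← pow_mul, mul_comm]
  rw [hcard]
  have hc : ((2 : ℝ) ^ Fintype.card κ) ^ Fintype.card ι ≠ 0 := by positivity
  have ha : (2 : ℝ) ^ Fintype.card ι ≠ 0 := by positivity
  field_simp

/-- Sum of the singleton coefficients. -/
def slev (f : (ι → Bool) → Bool) : ℝ := ∑ i, coef f {i} / 2 ^ Fintype.card ι

lemma slev_comp (g : (ι → Bool) → Bool) (h : (κ → Bool) → Bool) (hh : coef h ∅ = 0) :
    slev (comp g h) = slev g * slev h := by
  classical
  unfold slev
  rw [Fintype.sum_prod_type, Finset.sum_mul_sum]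
  refine Finset.sum_congr rfl fun i _ => Finset.sum_congr rfl fun j _ => ?_
  exact coef_comp_singleton g h hh i j

/-- Transport along a bijection of index types. -/
def transport {α β : Type} (e : α ≃ β) (f : (α → Bool) → Bool) : (β → Bool) → Bool :=
  fun x => f (fun a => x (e a))

lemma coef_transport {α β : Type} [Fintype α] [DecidableEq α] [Fintype β] [DecidableEq β]
    (e : α ≃ β) (f : (α → Bool) → Bool) (S : Finset β) :
    coef (transport e f) S = coef f (S.map e.symm.toEmbedding) := by
  classical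
  unfold coef
  refine Fintype.sum_equiv (Equiv.arrowCongr e.symm (Equiv.refl Bool)) _ _ ?_
  intro x
  have h1 : (Equiv.arrowCongr e.symm (Equiv.refl Bool)) x = fun a => x (e a) := by
    ext a
    simp [Equiv.arrowCongr]
  rw [h1]
  simp [transport, chi, Finset.prod_map]

/-- A gadget on `Fin n`. -/
structure Good (n d : ℕ) (s : ℝ) (f : (Fin n → Bool) → Bool) : Prop where
  deg : ∀ S : Finset (Fin n), d < S.card → coef f S = 0
  bal : coef f ∅ = 0
  lev : slev f = s

lemma Good.comp {n m d e : ℕ} {s t : ℝ} {f : (Fin n → Bool) → Bool} {g : (Fin m → Bool) → Bool}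
    (hf : Good n d s f) (hg : Good m e t g) : ∃ F, Good (n * m) (d * e) (s * t) F := by
  classical
  refine ⟨transport finProdFinEquiv (S0085Lib.comp f g), ?_, ?_, ?_⟩
  · intro S hS
    rw [coef_transport]
    apply coef_comp_eq_zero_of_card f g d e hf.deg hg.deg
    simpa using hS
  · rw [coef_transport]
    simpa using coef_comp_empty f g hf.bal hg.bal
  · have hcard : Fintype.card (Fin n × Fin m) = n * m := by simp
    have h1 : slev (transport finProdFinEquiv (S0085Lib.comp f g))
        = slev (S0085Lib.comp f g) := by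
      unfold slev
      simp only [Fintype.card_fin, hcard]
      refine Fintype.sum_equiv finProdFinEquiv.symm _ _ ?_
      intro i
      rw [coef_transport]
      simp
    rw [h1, slev_comp _ _ hg.bal, hf.lev, hg.lev]

lemma Good.iterate {m d : ℕ} {s : ℝ} {g : (Fin m → Bool) → Bool} (hg : Good m d s g) (k : ℕ) :
    ∃ n, ∃ F, Good n (d ^ (k + 1)) (s ^ (k + 1)) F := by
  induction k with
  | zero => exact ⟨m, g, by simpa using hg⟩
  | succ k ih =>
    obtain ⟨n, F, hF⟩ := ih
    obtain ⟨F', hF'⟩ := hF.comp hg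
    refine ⟨n * m, F', ?_⟩
    rw [pow_succ d (k + 1), pow_succ s (k + 1)]
    exact hF'

/-- From one gadget with `√d < s` to the unbounded statement. -/
theorem of_gadget {m d : ℕ} {s : ℝ} {g : (Fin m → Bool) → Bool} (hg : Good m d s g)
    (hd : 0 < d) (hs : Real.sqrt d < s) (C : ℝ) (_hC : 0 < C) :
    ∃ n : ℕ, ∃ f : (Fin n → Bool) → Bool, ∃ d : ℕ,
      (∃ x y, f x ≠ f y) ∧
      (∀ S : Finset (Fin n), d < S.card →
        ∑ x : Fin n → Bool, ((if f x then (1 : ℝ) else -1) * ∏ i ∈ S, (if x i then (1 : ℝ) else -1)) = 0) ∧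
      C * Real.sqrt d <
        ∑ i : Fin n, (∑ x : Fin n → Bool, ((if f x then (1 : ℝ) else -1) * (if x i then (1 : ℝ) else -1))) / 2 ^ n := by
  classical
  have hsq : 0 < Real.sqrt d := Real.sqrt_pos.mpr (by exact_mod_cast hd)
  have hr : 1 < s / Real.sqrt d := (one_lt_div hsq).mpr hs
  obtain ⟨k, hk⟩ := pow_unbounded_of_one_lt C hr
  have hk' : C < (s / Real.sqrt d) ^ (k + 1) := by
    refine hk.trans_le ?_
    exact pow_le_pow_right₀ hr.le (Nat.le_succ k)
  obtain ⟨n, F, hF⟩ := hg.iterate k
  refine ⟨n, F, d ^ (k + 1), ?_, ?_, ?_⟩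
  · by_contra hcon
    push Not at hcon
    have hb := hF.bal
    have h1 : coef F ∅ = ∑ _x : Fin n → Bool, sg (F (fun _ => false)) := by
      unfold coef
      refine Finset.sum_congr rfl fun x _ => ?_
      rw [hcon x (fun _ => false)]
      simp [chi]
    rw [h1] at hb
    simp only [sum_const, card_univ, nsmul_eq_mul] at hb
    have h2 : sg (F fun _ => false) ≠ 0 := by
      cases F (fun _ => false) <;> simp
    have h3 : ((Fintype.card (Fin n → Bool) : ℕ) : ℝ) ≠ 0 := by
      exact_mod_cast Fintype.card_ne_zero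
    exact (mul_ne_zero h3 h2) hb
  · intro S hS
    exact hF.deg S hS
  · have hlev := hF.lev
    have hsqrt : Real.sqrt ((d ^ (k + 1) : ℕ) : ℝ) = (Real.sqrt d) ^ (k + 1) := by
      rw [Nat.cast_pow]
      have hnn : (0 : ℝ) ≤ (d : ℝ) := Nat.cast_nonneg d
      rw [Real.sqrt_eq_iff_mul_self_eq (by positivity) (by positivity)]
      rw [← mul_pow, Real.mul_self_sqrt hnn]
    rw [hsqrt]
    have h4 : (∑ i : Fin n, (∑ x : Fin n → Bool, ((if F x then (1 : ℝ) else -1) * (if x i then (1 : ℝ) else -1))) / 2 ^ n)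
        = slev F := by
      unfold slev coef chi sg
      simp
    rw [h4, hlev]
    have hpos : 0 < (Real.sqrt d) ^ (k + 1) := by positivity
    rw [div_pow, lt_div_iff₀ hpos] at hk'
    exact hk'

end

/-! ### A kernel-checkable certificate for a finite gadget -/

/-- Complete binary tables of integers. -/
inductive Tb : ℕ → Type
  | leaf : ℤ → Tb 0
  | node {k : ℕ} : Tb k → Tb k → Tb (k + 1)

def Tb.add : {k : ℕ} → Tb k → Tb k → Tb k
  | _, .leaf x, .leaf y => .leaf (x + y)
  | _, .node a b, .node c d => .node (Tb.add a c) (Tb.add b d)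

def Tb.sub : {k : ℕ} → Tb k → Tb k → Tb k
  | _, .leaf x, .leaf y => .leaf (x - y)
  | _, .node a b, .node c d => .node (Tb.sub a c) (Tb.sub b d)

def Tb.ev : {k : ℕ} → Tb k → (Fin k → Bool) → ℤ
  | _, .leaf z, _ => z
  | _, .node a b, x => if x 0 then Tb.ev b (Fin.tail x) else Tb.ev a (Fin.tail x)

/-- `t.chk D`: all Walsh coefficients on sets of size `≥ D` vanish. -/
def Tb.chk : {k : ℕ} → Tb k → ℕ → Bool
  | _, .leaf z, D => (D != 0) || (z == 0)
  | _, .node a b, D => Tb.chk (Tb.add a b) D && Tb.chk (Tb.sub b a) (D - 1)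

/-- All entries are `±1`. -/
def Tb.pm : {k : ℕ} → Tb k → Bool
  | _, .leaf z => (z == 1) || (z == -1)
  | _, .node a b => Tb.pm a && Tb.pm b

def Tb.l0 : {k : ℕ} → Tb k → ℤ
  | _, .leaf z => z
  | _, .node a b => Tb.l0 a + Tb.l0 b

def Tb.l1 : {k : ℕ} → Tb k → ℤ
  | _, .leaf _ => 0
  | _, .node a b => Tb.l1 a + Tb.l1 b + (Tb.l0 b - Tb.l0 a)

/-- Build a table from the bits of a natural number. -/
def bld : (k : ℕ) → ℕ → Tb k
  | 0, T => .leaf (if T % 2 = 1 then 1 else -1)
  | k + 1, T => .node (bld k (T % 2 ^ (2 ^ k))) (bld k (T / 2 ^ (2 ^ k)))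

def sz (b : Bool) : ℤ := if b then 1 else -1

def chiz {k : ℕ} (S : Finset (Fin k)) (x : Fin k → Bool) : ℤ := ∏ i ∈ S, sz (x i)

lemma sum_cube_succ {k : ℕ} (F : (Fin (k + 1) → Bool) → ℤ) :
    ∑ x, F x = ∑ x : Fin k → Bool, (F (Fin.cons false x) + F (Fin.cons true x)) := by
  have h := Equiv.sum_comp (Fin.consEquiv (fun _ : Fin (k + 1) => Bool)) F
  rw [← h, Fintype.sum_prod_type, Fintype.sum_bool, Finset.sum_add_distrib, add_comm]
  rfl

lemma Tb.ev_add {k : ℕ} (a b : Tb k) (x : Fin k → Bool) :
    (Tb.add a b).ev x = a.ev x + b.ev x := by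
  induction a with
  | leaf z => cases b; rfl
  | node a1 a2 iha1 iha2 =>
    cases b with
    | node b1 b2 =>
      simp only [Tb.add, Tb.ev]
      split_ifs
      · exact iha2 _ _
      · exact iha1 _ _

lemma Tb.ev_sub {k : ℕ} (a b : Tb k) (x : Fin k → Bool) :
    (Tb.sub a b).ev x = a.ev x - b.ev x := by
  induction a with
  | leaf z => cases b; rfl
  | node a1 a2 iha1 iha2 =>
    cases b with
    | node b1 b2 =>
      simp only [Tb.sub, Tb.ev]
      split_ifs
      · exact iha2 _ _
      · exact iha1 _ _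

lemma Tb.ev_cons {k : ℕ} (a b : Tb k) (c : Bool) (x : Fin k → Bool) :
    (Tb.node a b).ev (Fin.cons c x) = if c then b.ev x else a.ev x := by
  simp [Tb.ev, Fin.tail_cons]

lemma chiz_cons {k : ℕ} (S : Finset (Fin (k + 1))) (c : Bool) (x : Fin k → Bool) :
    chiz S (Fin.cons c x) = (if (0 : Fin (k + 1)) ∈ S then sz c else 1)
      * chiz (S.preimage Fin.succ (Fin.succ_injective k).injOn) x := by
  classical
  unfold chiz
  have hS : S = (if (0 : Fin (k + 1)) ∈ S then {0} else ∅) ∪
      (S.preimage Fin.succ (Fin.succ_injective k).injOn).image Fin.succ := by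
    ext i
    refine Fin.cases ?_ (fun j => ?_) i
    · by_cases h : (0 : Fin (k + 1)) ∈ S <;> simp [h, Fin.succ_ne_zero]
    · simp [Fin.succ_ne_zero, Finset.mem_preimage]
      split_ifs <;> simp [Fin.succ_ne_zero]
  conv_lhs => rw [hS]
  rw [Finset.prod_union]
  · congr 1
    · split_ifs <;> simp
    · rw [Finset.prod_image]
      · refine Finset.prod_congr rfl fun j _ => ?_
        simp
      · intro a _ b _ h
        exact Fin.succ_injective k h
  · rw [Finset.disjoint_left]
    intro i hi hj
    split_ifs at hi with h0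
    · obtain ⟨j, _, hj2⟩ := Finset.mem_image.mp hj
      simp only [mem_singleton] at hi
      subst hi
      exact Fin.succ_ne_zero j hj2
    · simp at hi

lemma card_preimage_succ {k : ℕ} (S : Finset (Fin (k + 1))) :
    (S.preimage Fin.succ (Fin.succ_injective k).injOn).card
      = S.card - (if (0 : Fin (k + 1)) ∈ S then 1 else 0) := by
  classical
  have hS : S = (if (0 : Fin (k + 1)) ∈ S then {0} else ∅) ∪
      (S.preimage Fin.succ (Fin.succ_injective k).injOn).image Fin.succ := by
    ext i
    refine Fin.cases ?_ (fun j => ?_) i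
    · by_cases h : (0 : Fin (k + 1)) ∈ S <;> simp [h, Fin.succ_ne_zero]
    · simp [Fin.succ_ne_zero, Finset.mem_preimage]
      split_ifs <;> simp [Fin.succ_ne_zero]
  have hdisj : Disjoint (if (0 : Fin (k + 1)) ∈ S then ({0} : Finset (Fin (k + 1))) else ∅)
      ((S.preimage Fin.succ (Fin.succ_injective k).injOn).image Fin.succ) := by
    rw [Finset.disjoint_left]
    intro i hi hj
    split_ifs at hi with h0
    · obtain ⟨j, _, hj2⟩ := Finset.mem_image.mp hj
      simp only [mem_singleton] at hi
      subst hi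
      exact Fin.succ_ne_zero j hj2
    · simp at hi
  have hc := congrArg Finset.card hS
  rw [Finset.card_union_of_disjoint hdisj,
    Finset.card_image_of_injective _ (Fin.succ_injective k)] at hc
  split_ifs at hc ⊢ with h0
  · simp at hc; omega
  · simp at hc; omega

/-- Soundness of `chk`. -/
lemma Tb.chk_sound : ∀ {k : ℕ} (t : Tb k) (D : ℕ), t.chk D = true → ∀ S : Finset (Fin k),
    D ≤ S.card → ∑ x, t.ev x * chiz S x = 0
  | 0, .leaf z, D, h, S, hS => by
    have hS0 : S = ∅ := by
      ext i; exact i.elim0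
    subst hS0
    simp only [card_empty, Nat.le_zero] at hS
    subst hS
    simp only [Tb.chk, bne_self_eq_false, Bool.false_or, beq_iff_eq] at h
    simp [Tb.ev, h]
  | k + 1, .node a b, D, h, S, hS => by
    simp only [Tb.chk, Bool.and_eq_true] at h
    rw [sum_cube_succ]
    simp_rw [Tb.ev_cons, chiz_cons]
    set S' := S.preimage Fin.succ (Fin.succ_injective k).injOn with hS'
    by_cases h0 : (0 : Fin (k + 1)) ∈ S
    · have hc : D - 1 ≤ S'.card := by
        rw [hS', card_preimage_succ]; simp only [h0, if_true]; omega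
      have := Tb.chk_sound (Tb.sub b a) (D - 1) h.2 S' hc
      rw [← this]
      refine Finset.sum_congr rfl fun x _ => ?_
      rw [Tb.ev_sub]
      simp [h0, sz]
      ring
    · have hc : D ≤ S'.card := by
        rw [hS', card_preimage_succ]; simp only [h0, if_false]; omega
      have := Tb.chk_sound (Tb.add a b) D h.1 S' hc
      rw [← this]
      refine Finset.sum_congr rfl fun x _ => ?_
      rw [Tb.ev_add]
      simp [h0]
      ring

lemma Tb.pm_sound : ∀ {k : ℕ} (t : Tb k), t.pm = true → ∀ x, t.ev x = 1 ∨ t.ev x = -1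
  | 0, .leaf z, h, x => by
    simpa [Tb.pm, Tb.ev] using h
  | k + 1, .node a b, h, x => by
    simp only [Tb.pm, Bool.and_eq_true] at h
    simp only [Tb.ev]
    split_ifs
    · exact Tb.pm_sound b h.2 _
    · exact Tb.pm_sound a h.1 _

lemma Tb.l0_sound : ∀ {k : ℕ} (t : Tb k), t.l0 = ∑ x, t.ev x
  | 0, .leaf z => by simp [Tb.l0, Tb.ev]
  | k + 1, .node a b => by
    rw [sum_cube_succ]
    simp_rw [Tb.ev_cons]
    simp only [Tb.l0, Bool.false_eq_true, if_false, if_true]
    rw [Finset.sum_add_distrib, ← Tb.l0_sound a, ← Tb.l0_sound b]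

lemma Tb.l1_sound : ∀ {k : ℕ} (t : Tb k), t.l1 = ∑ i, ∑ x, t.ev x * sz (x i)
  | 0, .leaf z => by simp [Tb.l1]
  | k + 1, .node a b => by
    rw [Fin.sum_univ_succ]
    simp only [Tb.l1]
    have h0 : ∑ x, (Tb.node a b).ev x * sz (x 0) = Tb.l0 b - Tb.l0 a := by
      rw [sum_cube_succ, Tb.l0_sound a, Tb.l0_sound b, ← Finset.sum_sub_distrib]
      refine Finset.sum_congr rfl fun x _ => ?_
      rw [Tb.ev_cons, Tb.ev_cons]
      simp [sz]
      ring
    have h1 : ∀ i : Fin k, ∑ x, (Tb.node a b).ev x * sz (x i.succ)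
        = ∑ x, a.ev x * sz (x i) + ∑ x, b.ev x * sz (x i) := by
      intro i
      rw [sum_cube_succ, ← Finset.sum_add_distrib]
      refine Finset.sum_congr rfl fun x _ => ?_
      rw [Tb.ev_cons, Tb.ev_cons]
      simp
    simp_rw [h1]
    rw [h0, Finset.sum_add_distrib, ← Tb.l1_sound a, ← Tb.l1_sound b]
    ring

/-- The function defined by a table. -/
def Tb.fn {k : ℕ} (t : Tb k) : (Fin k → Bool) → Bool := fun x => decide (0 < t.ev x)

lemma sg_fn {k : ℕ} (t : Tb k) (h : t.pm = true) (x : Fin k → Bool) :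
    sg (t.fn x) = (t.ev x : ℝ) := by
  rcases Tb.pm_sound t h x with h1 | h1 <;> simp [Tb.fn, h1, sg]

lemma chi_eq_chiz {k : ℕ} (S : Finset (Fin k)) (x : Fin k → Bool) :
    chi S x = (chiz S x : ℝ) := by
  unfold chi chiz
  push_cast
  refine Finset.prod_congr rfl fun i _ => ?_
  cases x i <;> simp [sz]

lemma coef_fn {k : ℕ} (t : Tb k) (h : t.pm = true) (S : Finset (Fin k)) :
    coef t.fn S = ((∑ x, t.ev x * chiz S x : ℤ) : ℝ) := by
  unfold coef
  push_cast
  refine Finset.sum_congr rfl fun x _ => ?_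
  rw [sg_fn t h, chi_eq_chiz]

/-- Certificate: a table passing the checks gives a gadget. -/
theorem good_of_table {k d : ℕ} (t : Tb k) (L : ℤ) (hpm : t.pm = true)
    (hchk : t.chk (d + 1) = true) (h0 : t.l0 = 0) (h1 : t.l1 = L) :
    Good k d ((L : ℝ) / 2 ^ k) t.fn := by
  refine ⟨?_, ?_, ?_⟩
  · intro S hS
    rw [coef_fn t hpm, Tb.chk_sound t (d + 1) hchk S hS]
    simp
  · rw [coef_fn t hpm]
    have : ∑ x, t.ev x * chiz (∅ : Finset (Fin k)) x = t.l0 := by
      rw [Tb.l0_sound]
      simp [chiz]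
    rw [this, h0]
    simp
  · unfold slev
    simp only [Fintype.card_fin]
    rw [← Finset.sum_div]
    congr 1
    rw [← h1, Tb.l1_sound]
    push_cast
    refine Finset.sum_congr rfl fun i _ => ?_
    rw [coef_fn t hpm]
    push_cast
    refine Finset.sum_congr rfl fun x _ => ?_
    simp [chiz]

/-! ### Packed tables: all arithmetic is on one big natural number -/

/-- Base power: a table with `2 ^ k` digits of width `W` is below `mM W k`. -/
def mM (W k : ℕ) : ℕ := 2 ^ (W * 2 ^ k)

lemma mM_pos (W k : ℕ) : 0 < mM W k := by unfold mM; positivity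

lemma mM_succ (W k : ℕ) : mM W (k + 1) = mM W k * mM W k := by
  unfold mM
  rw [← pow_add]
  congr 1
  rw [pow_succ]
  ring

/-- The digit at position `x`. -/
def dg (W : ℕ) : (k : ℕ) → ℕ → (Fin k → Bool) → ℕ
  | 0, X, _ => X
  | k + 1, X, x => dg W k (if x 0 then X / mM W k else X % mM W k) (Fin.tail x)

/-- All digits are at most `c`, and the number fits. -/
def Bd (W : ℕ) : (k : ℕ) → ℕ → ℕ → Prop
  | 0, c, X => X ≤ c
  | k + 1, c, X => X < mM W (k + 1) ∧ Bd W k c (X % mM W k) ∧ Bd W k c (X / mM W k)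

lemma Bd.lt {W c : ℕ} (hc : c < 2 ^ W) : ∀ {k X : ℕ}, Bd W k c X → X < mM W k
  | 0, X, h => by
    have : mM W 0 = 2 ^ W := by simp [mM]
    rw [this]
    exact lt_of_le_of_lt h hc
  | _ + 1, _, h => h.1

lemma Bd.mono {W c e : ℕ} (hce : c ≤ e) : ∀ {k X : ℕ}, Bd W k c X → Bd W k e X
  | 0, X, h => le_trans h hce
  | _ + 1, _, h => ⟨h.1, Bd.mono hce h.2.1, Bd.mono hce h.2.2⟩

lemma split_add {M A B C D : ℕ} (hA : A < M) (hB : B < M) (hAB : A + C < M) :
    ((A + M * B) + (C + M * D)) % M = A + C ∧ ((A + M * B) + (C + M * D)) / M = B + D := by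
  have hM : 0 < M := lt_of_le_of_lt (Nat.zero_le _) hA
  have e : (A + M * B) + (C + M * D) = (A + C) + M * (B + D) := by ring
  rw [e]
  constructor
  · rw [Nat.add_mul_mod_self_left, Nat.mod_eq_of_lt hAB]
  · rw [Nat.add_mul_div_left _ _ hM, Nat.div_eq_of_lt hAB, Nat.zero_add]

/-- Additivity of digits when no carry can occur. -/
lemma Bd_add {W c e : ℕ} (hce : c + e < 2 ^ W) : ∀ {k X Y : ℕ}, Bd W k c X → Bd W k e Y →
    Bd W k (c + e) (X + Y) ∧ ∀ x, dg W k (X + Y) x = dg W k X x + dg W k Y x
  | 0, X, Y, hX, hY => ⟨Nat.add_le_add hX hY, fun _ => rfl⟩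
  | k + 1, X, Y, hX, hY => by
    have hc : c < 2 ^ W := by omega
    have he : e < 2 ^ W := by omega
    set M := mM W k with hM
    have hMpos : 0 < M := mM_pos W k
    obtain ⟨hX0, hXl, hXh⟩ := hX
    obtain ⟨hY0, hYl, hYh⟩ := hY
    have ihl := Bd_add hce hXl hYl
    have ihh := Bd_add hce hXh hYh
    have hlLt : X % M + Y % M < M := Bd.lt (by omega) ihl.1
    have hhLt : X / M + Y / M < M := Bd.lt (by omega) ihh.1
    have hXe : X = X % M + M * (X / M) := (Nat.mod_add_div X M).symm
    have hYe : Y = Y % M + M * (Y / M) := (Nat.mod_add_div Y M).symm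
    have hs := split_add (M := M) (A := X % M) (B := X / M) (C := Y % M) (D := Y / M)
      (Nat.mod_lt _ hMpos) (Bd.lt hc hXh) hlLt
    rw [← hXe, ← hYe] at hs
    refine ⟨⟨?_, ?_, ?_⟩, ?_⟩
    · rw [mM_succ, ← hM]
      have e1 : X + Y = (X % M + Y % M) + M * (X / M + Y / M) := by
        conv_lhs => rw [hXe, hYe]
        ring
      rw [e1]
      calc (X % M + Y % M) + M * (X / M + Y / M)
          < M + M * (X / M + Y / M) := by omega
        _ = M * (X / M + Y / M + 1) := by ring
        _ ≤ M * M := Nat.mul_le_mul_left _ hhLt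
    · rw [hs.1]; exact ihl.1
    · rw [hs.2]; exact ihh.1
    · intro x
      simp only [dg]
      split_ifs
      · rw [← hM, hs.2]; exact ihh.2 _
      · rw [← hM, hs.1]; exact ihl.2 _

/-- The packed degree check: `chk2 W k P N D` says all Walsh coefficients of the digit
difference on sets of size `≥ D` vanish. -/
def chk2 (W : ℕ) : (k : ℕ) → ℕ → ℕ → ℕ → Bool
  | 0, P, N, D => (D != 0) || (P == N)
  | k + 1, P, N, D =>
    if D = 0 then P == N
    else if k + 1 < D then true
    else
      chk2 W k (P % mM W k + P / mM W k) (N % mM W k + N / mM W k) D &&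
      chk2 W k (P / mM W k + N % mM W k) (N / mM W k + P % mM W k) (D - 1)

/-- Sum of the digit differences. -/
def lz (W : ℕ) : (k : ℕ) → ℕ → ℕ → ℤ
  | 0, P, N => (P : ℤ) - N
  | k + 1, P, N => lz W k (P % mM W k + P / mM W k) (N % mM W k + N / mM W k)

/-- Sum of the singleton coefficients of the digit difference. -/
def l1z (W : ℕ) : (k : ℕ) → ℕ → ℕ → ℤ
  | 0, _, _ => 0
  | k + 1, P, N =>
    l1z W k (P % mM W k + P / mM W k) (N % mM W k + N / mM W k) +
      lz W k (P / mM W k + N % mM W k) (N / mM W k + P % mM W k)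

/-- The signed value at a point. -/
def vv (W k P N : ℕ) (x : Fin k → Bool) : ℤ := (dg W k P x : ℤ) - dg W k N x

lemma vv_cons {W k P N : ℕ} (c : Bool) (x : Fin k → Bool) :
    vv W (k + 1) P N (Fin.cons c x)
      = if c then vv W k (P / mM W k) (N / mM W k) x else vv W k (P % mM W k) (N % mM W k) x := by
  cases c <;> simp [vv, dg, Fin.tail_cons]

lemma vv_add {W k c P N P' N' : ℕ} (h2c : c + c < 2 ^ W)
    (hP : Bd W k c P) (hN : Bd W k c N) (hP' : Bd W k c P') (hN' : Bd W k c N')
    (x : Fin k → Bool) :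
    vv W k (P + P') (N + N') x = vv W k P N x + vv W k P' N' x := by
  unfold vv
  rw [(Bd_add h2c hP hP').2 x, (Bd_add h2c hN hN').2 x]
  push_cast
  ring

lemma vv_sub {W k c P N P' N' : ℕ} (h2c : c + c < 2 ^ W)
    (hP : Bd W k c P) (hN : Bd W k c N) (hP' : Bd W k c P') (hN' : Bd W k c N')
    (x : Fin k → Bool) :
    vv W k (P' + N) (N' + P) x = vv W k P' N' x - vv W k P N x := by
  unfold vv
  rw [(Bd_add h2c hP' hN).2 x, (Bd_add h2c hN' hP).2 x]
  push_cast
  ring

/-- Digit bound passes down one level, doubling. -/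
lemma bd_step {W k c P : ℕ} (h2c : c + c < 2 ^ W) (hP : Bd W (k + 1) c P) :
    Bd W k (c + c) (P % mM W k + P / mM W k) := (Bd_add h2c hP.2.1 hP.2.2).1

lemma bd_step' {W k c P N : ℕ} (h2c : c + c < 2 ^ W) (hP : Bd W (k + 1) c P) (hN : Bd W (k + 1) c N) :
    Bd W k (c + c) (P / mM W k + N % mM W k) := (Bd_add h2c hP.2.2 hN.2.1).1

/-- Soundness of the packed degree check. -/
lemma chk2_sound {W : ℕ} : ∀ (k c P N D : ℕ), c * 2 ^ k < 2 ^ W → Bd W k c P → Bd W k c N →
    chk2 W k P N D = true → ∀ S : Finset (Fin k), D ≤ S.card →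
      ∑ x, vv W k P N x * chiz S x = 0
  | 0, c, P, N, D, _, _, _, h, S, hS => by
    have hS0 : S = ∅ := by
      ext i; exact i.elim0
    subst hS0
    simp only [card_empty, Nat.le_zero] at hS
    subst hS
    simp only [chk2, bne_self_eq_false, Bool.false_or, beq_iff_eq] at h
    simp [vv, dg, h]
  | k + 1, c, P, N, D, hc, hP, hN, h, S, hS => by
    by_cases hD : D = 0
    · subst hD
      simp only [chk2, if_true, beq_iff_eq] at h
      subst h
      simp [vv]
    by_cases hlt : k + 1 < D
    · exfalso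
      have : S.card ≤ k + 1 := by simpa using Finset.card_le_univ S
      omega
    · have h2c : c + c < 2 ^ W := by
        have : c * 2 ^ (k + 1) = (c + c) * 2 ^ k := by rw [pow_succ]; ring
        rw [this] at hc
        have h1 : 1 ≤ 2 ^ k := Nat.one_le_two_pow
        nlinarith
      have hc2 : (c + c) * 2 ^ k < 2 ^ W := by
        have : c * 2 ^ (k + 1) = (c + c) * 2 ^ k := by rw [pow_succ]; ring
        rwa [this] at hc
      have h' := h
      simp only [chk2, hD, if_false, hlt, Bool.and_eq_true] at h'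
      rw [sum_cube_succ]
      simp_rw [vv_cons, chiz_cons]
      set S' := S.preimage Fin.succ (Fin.succ_injective k).injOn with hS'
      by_cases h0 : (0 : Fin (k + 1)) ∈ S
      · have hcd : D - 1 ≤ S'.card := by
          rw [hS', card_preimage_succ]; simp only [h0, if_true]; omega
        have := chk2_sound k (c + c) _ _ (D - 1) hc2 (bd_step' h2c hP hN) (bd_step' h2c hN hP) h'.2 S' hcd
        rw [← this]
        refine Finset.sum_congr rfl fun x _ => ?_
        rw [vv_sub h2c hP.2.1 hN.2.1 hP.2.2 hN.2.2 x]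
        simp [h0, sz]
        ring
      · have hcd : D ≤ S'.card := by
          rw [hS', card_preimage_succ]; simp only [h0, if_false]; omega
        have := chk2_sound k (c + c) _ _ D hc2 (bd_step h2c hP) (bd_step h2c hN) h'.1 S' hcd
        rw [← this]
        refine Finset.sum_congr rfl fun x _ => ?_
        rw [vv_add h2c hP.2.1 hN.2.1 hP.2.2 hN.2.2 x]
        simp [h0]
        ring

lemma lz_sound {W : ℕ} : ∀ (k c P N : ℕ), c * 2 ^ k < 2 ^ W → Bd W k c P → Bd W k c N →
    lz W k P N = ∑ x, vv W k P N x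
  | 0, _, P, N, _, _, _ => by simp [lz, vv, dg]
  | k + 1, c, P, N, hc, hP, hN => by
    have h2c : c + c < 2 ^ W := by
      have : c * 2 ^ (k + 1) = (c + c) * 2 ^ k := by rw [pow_succ]; ring
      rw [this] at hc
      have h1 : 1 ≤ 2 ^ k := Nat.one_le_two_pow
      nlinarith
    have hc2 : (c + c) * 2 ^ k < 2 ^ W := by
      have : c * 2 ^ (k + 1) = (c + c) * 2 ^ k := by rw [pow_succ]; ring
      rwa [this] at hc
    rw [sum_cube_succ]
    simp_rw [vv_cons]
    simp only [lz, Bool.false_eq_true, if_false, if_true]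
    rw [lz_sound k (c + c) _ _ hc2 (bd_step h2c hP) (bd_step h2c hN)]
    refine Finset.sum_congr rfl fun x _ => ?_
    rw [vv_add h2c hP.2.1 hN.2.1 hP.2.2 hN.2.2 x]

lemma l1z_sound {W : ℕ} : ∀ (k c P N : ℕ), c * 2 ^ k < 2 ^ W → Bd W k c P → Bd W k c N →
    l1z W k P N = ∑ i, ∑ x, vv W k P N x * sz (x i)
  | 0, _, P, N, _, _, _ => by simp [l1z]
  | k + 1, c, P, N, hc, hP, hN => by
    have h2c : c + c < 2 ^ W := by
      have : c * 2 ^ (k + 1) = (c + c) * 2 ^ k := by rw [pow_succ]; ring
      rw [this] at hc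
      have h1 : 1 ≤ 2 ^ k := Nat.one_le_two_pow
      nlinarith
    have hc2 : (c + c) * 2 ^ k < 2 ^ W := by
      have : c * 2 ^ (k + 1) = (c + c) * 2 ^ k := by rw [pow_succ]; ring
      rwa [this] at hc
    rw [Fin.sum_univ_succ]
    simp only [l1z]
    have h0 : ∑ x, vv W (k + 1) P N x * sz (x 0)
        = lz W k (P / mM W k + N % mM W k) (N / mM W k + P % mM W k) := by
      rw [sum_cube_succ, lz_sound k (c + c) _ _ hc2 (bd_step' h2c hP hN) (bd_step' h2c hN hP)]
      refine Finset.sum_congr rfl fun x _ => ?_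
      rw [vv_sub h2c hP.2.1 hN.2.1 hP.2.2 hN.2.2 x, vv_cons, vv_cons]
      simp [sz]
      ring
    have h1 : ∀ i : Fin k, ∑ x, vv W (k + 1) P N x * sz (x i.succ)
        = ∑ x, vv W k (P % mM W k + P / mM W k) (N % mM W k + N / mM W k) x * sz (x i) := by
      intro i
      rw [sum_cube_succ]
      refine Finset.sum_congr rfl fun x _ => ?_
      rw [vv_add h2c hP.2.1 hN.2.1 hP.2.2 hN.2.2 x, vv_cons, vv_cons]
      simp
      ring
    simp_rw [h1]
    rw [h0, l1z_sound k (c + c) _ _ hc2 (bd_step h2c hP) (bd_step h2c hN)]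
    ring

/-- Boolean check of the digit bound. -/
def bdChk (W : ℕ) : (k : ℕ) → ℕ → ℕ → Bool
  | 0, c, X => decide (X ≤ c)
  | k + 1, c, X => decide (X < mM W (k + 1)) && bdChk W k c (X % mM W k) && bdChk W k c (X / mM W k)

lemma bdChk_sound {W : ℕ} : ∀ (k c X : ℕ), bdChk W k c X = true → Bd W k c X
  | 0, c, X, h => by
    have h2 : X ≤ c := by simpa [bdChk] using h
    exact h2
  | k + 1, c, X, h => by
    simp only [bdChk, Bool.and_eq_true, decide_eq_true_eq] at h
    exact ⟨h.1.1, bdChk_sound k c _ h.1.2, bdChk_sound k c _ h.2⟩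

/-- Digits equal to one everywhere. -/
def ones (W : ℕ) : ℕ → ℕ
  | 0 => 1
  | k + 1 => ones W k + mM W k * ones W k

lemma ones_spec {W : ℕ} (hW : 1 < 2 ^ W) : ∀ k : ℕ, Bd W k 1 (ones W k) ∧ ∀ x, dg W k (ones W k) x = 1
  | 0 => ⟨le_refl _, fun _ => rfl⟩
  | k + 1 => by
    obtain ⟨h1, h2⟩ := ones_spec hW k
    have hlt := Bd.lt hW h1
    have hm : ones W (k + 1) % mM W k = ones W k := by
      simp only [ones]
      rw [Nat.add_mul_mod_self_left, Nat.mod_eq_of_lt hlt]
    have hd : ones W (k + 1) / mM W k = ones W k := by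
      simp only [ones]
      rw [Nat.add_mul_div_left _ _ (mM_pos W k), Nat.div_eq_of_lt hlt, Nat.zero_add]
    refine ⟨⟨?_, ?_, ?_⟩, ?_⟩
    · rw [mM_succ]
      simp only [ones]
      calc ones W k + mM W k * ones W k < mM W k + mM W k * ones W k := by omega
        _ = mM W k * (ones W k + 1) := by ring
        _ ≤ mM W k * mM W k := Nat.mul_le_mul_left _ hlt
    · rw [hm]; exact h1
    · rw [hd]; exact h1
    · intro x
      simp only [dg]
      split_ifs
      · rw [hd]; exact h2 _
      · rw [hm]; exact h2 _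

/-- The Boolean function encoded by the digits of `P`. -/
def pfn (W k P : ℕ) : (Fin k → Bool) → Bool := fun x => decide (dg W k P x ≠ 0)

lemma sg_pfn {W k P N : ℕ} (hW : 1 + 1 < 2 ^ W) (hP : Bd W k 1 P) (hN : Bd W k 1 N)
    (hsum : P + N = ones W k) (x : Fin k → Bool) :
    sg (pfn W k P x) = (vv W k P N x : ℝ) := by
  have h1 := (Bd_add hW hP hN).2 x
  rw [hsum, (ones_spec (by omega) k).2 x] at h1
  unfold pfn vv
  rcases Nat.eq_zero_or_pos (dg W k P x) with h0 | h0
  · have : dg W k N x = 1 := by omega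
    simp [h0, this]
  · have h2 : dg W k P x = 1 := by omega
    have h3 : dg W k N x = 0 := by omega
    simp [h2, h3]

/-- Certificate from a packed table. -/
theorem good_of_packed {W k d : ℕ} (P N : ℕ) (L : ℤ) (hW : 2 ^ k < 2 ^ W) (hk : 1 ≤ k)
    (hP : bdChk W k 1 P = true) (hN : bdChk W k 1 N = true) (hsum : P + N = ones W k)
    (hchk : chk2 W k P N (d + 1) = true) (h0 : lz W k P N = 0) (h1 : l1z W k P N = L) :
    Good k d ((L : ℝ) / 2 ^ k) (pfn W k P) := by
  have hP' := bdChk_sound _ _ _ hP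
  have hN' := bdChk_sound _ _ _ hN
  have hW2 : 1 + 1 < 2 ^ W := by
    have : 2 ^ 1 ≤ 2 ^ k := Nat.pow_le_pow_right (by norm_num) hk
    omega
  have hcoef : ∀ S : Finset (Fin k), coef (pfn W k P) S = ((∑ x, vv W k P N x * chiz S x : ℤ) : ℝ) := by
    intro S
    unfold coef
    push_cast
    refine Finset.sum_congr rfl fun x _ => ?_
    rw [sg_pfn hW2 hP' hN' hsum, chi_eq_chiz]
  have hc : 1 * 2 ^ k < 2 ^ W := by simpa using hW
  refine ⟨?_, ?_, ?_⟩
  · intro S hS
    rw [hcoef, chk2_sound k 1 P N (d + 1) hc hP' hN' hchk S hS]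
    simp
  · rw [hcoef]
    have : ∑ x, vv W k P N x * chiz (∅ : Finset (Fin k)) x = lz W k P N := by
      rw [lz_sound k 1 P N hc hP' hN']
      simp [chiz]
    rw [this, h0]
    simp
  · unfold slev
    simp only [Fintype.card_fin]
    rw [← Finset.sum_div]
    congr 1
    rw [← h1, l1z_sound k 1 P N hc hP' hN']
    push_cast
    refine Finset.sum_congr rfl fun i _ => ?_
    rw [hcoef]
    push_cast
    refine Finset.sum_congr rfl fun x _ => ?_
    simp [chiz]

end Crest.Agent.S0085Lib
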